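import Crest.Agent.N218.Fo.Fo
import Crest.Agent.N218.K.Defs

/-! # N218/Fo/Rp (helper45): the regular representation and its circle extension -/

set_option autoImplicit false
set_option linter.unusedSectionVars false

noncomputable section

namespace Crest.Agent.N218.Fo

open K

variable (q : ℕ) [NeZero q] (E : Type) [NormedAddCommGroup E] [NormedSpace ℂ E]
  [FiniteDimensional ℂ E]

instance fdR : FiniteDimensional ℝ (ZMod q → E) := Module.Finite.trans ℂ _

/-- the inclusion `C_q → S¹` -/
def inc : Multiplicative (ZMod q) →* Circle := (ZMod.toCircle (N := q)).toMonoidHom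

theorem inc_apply (a : Multiplicative (ZMod q)) : (inc q a : ℂ) = ch a.toAdd := rfl
theorem inc_cont : Continuous (inc q) := continuous_of_discreteTopology
theorem inc_inj : Function.Injective (inc q) := fun _ _ h =>
  Multiplicative.toAdd.injective (ZMod.injective_toCircle h)

/-- the character `z ↦ z ^ k` -/
def pw (k : ℕ) : Circle →* Circle := powMonoidHom k
theorem pw_cont (k : ℕ) : Continuous (pw k) := continuous_pow k
theorem pw_apply (k : ℕ) (z : Circle) : (pw k z : ℂ) = (z : ℂ) ^ k := Circle.coe_pow z k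

/-- the circle acts on the `k`-th Fourier component with weight `k ∈ {0, …, q - 1}` -/
def cir : Rep Circle where
  W := ZMod q → E
  ρ := { toFun := fun z => (mu fun k : ZMod q => (z : ℂ) ^ k.val).restrictScalars ℝ
         map_one' := ContinuousLinearMap.ext fun y => D_ext fun k => by simp
         map_mul' := fun z w => ContinuousLinearMap.ext fun y => D_ext fun k => by
           simp [mul_pow, smul_smul] }
  cont := continuous_clm_apply.2 fun y => cont_mu (continuous_pi fun k =>
    continuous_subtype_val.pow k.val) continuous_const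

/-- the regular representation -/
def reg : Rep (Multiplicative (ZMod q)) := (cir q E).res (inc q) (inc_cont q)

variable {q E}

theorem cir_apply (z : Circle) (y : ZMod q → E) :
    (cir q E).ρ z y = mu (fun k : ZMod q => (z : ℂ) ^ k.val) y := rfl

theorem D_cir (z : Circle) (y : ZMod q → E) (k : ZMod q) :
    D q E ((cir q E).ρ z y) k = (z : ℂ) ^ k.val • D q E y k := D_mu _ _ _

theorem reg_apply (a : Multiplicative (ZMod q)) (y : ZMod q → E) :
    (reg q E).ρ a y = sh a.toAdd y := by
  rw [sh_eq]
  exact mu_congr fun k => .inl (ch_mul _ _).symm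

theorem cir_exp (r : ℝ) (y : ZMod q → E) :
    (cir q E).ρ (Circle.exp (2 * Real.pi * r / q)) y = g r y :=
  mu_congr fun k => .inl (by
    rw [Circle.coe_exp, ← Complex.exp_nat_mul, gs]; congr 1; push_cast; ring)

/-- Fourier coordinates -/
def co (q : ℕ) [NeZero q] (ι : Type) [Fintype ι] : (ZMod q → ι → ℂ) ≃L[ℂ] (ZMod q × ι → ℂ) :=
  (D q (ι → ℂ)).trans (LinearEquiv.curry ℂ ℂ (ZMod q) ι).symm.toContinuousLinearEquiv

theorem co_apply {ι : Type} [Fintype ι] (y : ZMod q → ι → ℂ) (k : ZMod q × ι) :
    co q ι y k = D q (ι → ℂ) y k.1 k.2 := rfl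

/-- the sum of characters isomorphic to `cir` -/
def wtc (q : ℕ) [NeZero q] (ι : Type) [Fintype ι] : Rep Circle :=
  Rep.wt (fun k : ZMod q × ι => pw k.1.val) fun _ => pw_cont _

theorem co_cir {ι : Type} [Fintype ι] (z : Circle) (y : ZMod q → ι → ℂ) :
    co q ι ((cir q (ι → ℂ)).ρ z y) = (wtc q ι).ρ z (co q ι y) := funext fun k => by
  refine (congrFun (D_cir z y k.1) k.2).trans ?_
  change _ = (pw k.1.val z : ℂ) * co q ι y k
  rw [pw_apply]; rfl

theorem co_sh {ι : Type} [Fintype ι] (a : Multiplicative (ZMod q)) (y : ZMod q → ι → ℂ) :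
    co q ι (sh a.toAdd y) = (wtc q ι).ρ (inc q a) (co q ι y) := by
  rw [← co_cir, ← reg_apply]; rfl

theorem co_symm {ι : Type} [Fintype ι] (c : ZMod q × ι → ℂ) (i : ZMod q) (j : ι) :
    (co q ι).symm c i j = (q : ℂ)⁻¹ * ∑ k, ch i ^ k.val * c (k, j) := by
  change (D q (ι → ℂ)).symm (fun k j => c (k, j)) i j = _
  rw [D_symm]
  simp only [Pi.smul_apply, Finset.sum_apply, smul_eq_mul, mul_comm _ i, ch_mul]

end Crest.Agent.N218.Fo

end
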