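import Crest.Agent.N218.Fo.Fo

/-! # N218/Fo/L2 (helper45): Parseval; unimodular multipliers preserve the `ℓ²` norm -/

set_option autoImplicit false
set_option linter.unusedSectionVars false

open scoped InnerProductSpace

noncomputable section

namespace Crest.Agent.N218.Fo

variable {q : ℕ} [NeZero q] {E : Type} [NormedAddCommGroup E]

/-- the `ℓ²` norm -/
def n2 (y : ZMod q → E) : ℝ := ‖(WithLp.toLp 2 y : PiLp 2 fun _ : ZMod q => E)‖

theorem n2_sq (y : ZMod q → E) : n2 y ^ 2 = ∑ i, ‖y i‖ ^ 2 := PiLp.norm_sq_eq_of_L2 _ _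
theorem n2_nonneg (y : ZMod q → E) : 0 ≤ n2 y := norm_nonneg _
theorem le_n2 (y : ZMod q → E) (i : ZMod q) : ‖y i‖ ≤ n2 y :=
  PiLp.norm_apply_le (WithLp.toLp 2 y : PiLp 2 fun _ : ZMod q => E) i
theorem norm_le_n2 (y : ZMod q → E) : ‖y‖ ≤ n2 y :=
  (pi_norm_le_iff_of_nonneg (n2_nonneg y)).2 (le_n2 y)
theorem n2_add (y z : ZMod q → E) : n2 (y + z) ≤ n2 y + n2 z := norm_add_le
  (WithLp.toLp 2 y : PiLp 2 fun _ : ZMod q => E) (WithLp.toLp 2 z)
theorem n2_sub (y z : ZMod q → E) : n2 (y - z) ≤ n2 y + n2 z := norm_sub_le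
  (WithLp.toLp 2 y : PiLp 2 fun _ : ZMod q => E) (WithLp.toLp 2 z)
theorem n2_neg (y : ZMod q → E) : n2 (-y) = n2 y := norm_neg
  (WithLp.toLp 2 y : PiLp 2 fun _ : ZMod q => E)
theorem n2_zero : n2 (0 : ZMod q → E) = 0 := norm_zero (E := PiLp 2 fun _ : ZMod q => E)
theorem n2_eq_zero {y : ZMod q → E} (h : n2 y ≤ 0) : y = 0 := norm_le_zero_iff.1 ((norm_le_n2 y).trans h)
theorem n2_mono {F : Type} [NormedAddCommGroup F] {y : ZMod q → E} {z : ZMod q → F}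
    (h : ∀ i, ‖y i‖ ≤ ‖z i‖) : n2 y ≤ n2 z :=
  (pow_le_pow_iff_left₀ (n2_nonneg _) (n2_nonneg _) two_ne_zero).1 (by
    rw [n2_sq, n2_sq]; exact Finset.sum_le_sum fun i _ => pow_le_pow_left₀ (norm_nonneg _) (h i) 2)
theorem n2_congr {F : Type} [NormedAddCommGroup F] {y : ZMod q → E} {z : ZMod q → F}
    (h : ∀ i, ‖y i‖ = ‖z i‖) : n2 y = n2 z :=
  le_antisymm (n2_mono fun i => (h i).le) (n2_mono fun i => (h i).ge)
theorem n2_le (y : ZMod q → E) {C : ℝ} (h : ∀ i, ‖y i‖ ≤ C) : n2 y ≤ q * C := by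
  have h0 : 0 ≤ C := (norm_nonneg _).trans (h 0)
  have h1 : (1 : ℝ) ≤ q := Nat.one_le_cast.2 (Nat.pos_of_ne_zero (NeZero.ne q))
  refine (pow_le_pow_iff_left₀ (n2_nonneg _) (by positivity) two_ne_zero).1 ?_
  rw [n2_sq]
  refine (Finset.sum_le_card_nsmul _ _ (C ^ 2) fun i _ =>
    pow_le_pow_left₀ (norm_nonneg _) (h i) 2).trans ?_
  rw [Finset.card_univ, ZMod.card, nsmul_eq_mul]
  nlinarith [mul_nonneg (sub_nonneg.2 h1) (mul_nonneg (zero_le_one.trans h1) (sq_nonneg C))]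
theorem n2_le_norm (y : ZMod q → E) : n2 y ≤ q * ‖y‖ := n2_le y (norm_le_pi_norm y)
theorem n2_sh (a : ZMod q) (y : ZMod q → E) : n2 (sh a y) = n2 y :=
  (pow_left_inj₀ (n2_nonneg _) (n2_nonneg _) two_ne_zero).1 (by
    rw [n2_sq, n2_sq]; exact Equiv.sum_comp (Equiv.addRight a) fun i => ‖y i‖ ^ 2)
theorem n2_smul {𝕜 : Type} [NormedField 𝕜] [NormedSpace 𝕜 E] (c : 𝕜) (y : ZMod q → E) :
    n2 (c • y) = ‖c‖ * n2 y := norm_smul c (WithLp.toLp 2 y : PiLp 2 fun _ : ZMod q => E)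
@[fun_prop] theorem continuous_n2 : Continuous (n2 : (ZMod q → E) → ℝ) :=
  continuous_norm.comp (PiLp.continuous_toLp 2 _)

/-- slotwise affine lower bounds pass to the `ℓ²` norms -/
theorem n2_ge {F : Type} [NormedAddCommGroup F] {y : ZMod q → E} {z : ZMod q → F} {a C : ℝ}
    (ha : 0 ≤ a) (hC : 0 ≤ C) (h : ∀ i, a * ‖y i‖ ≤ ‖z i‖ + C) : a * n2 y ≤ n2 z + q * C := by
  have e1 : a * n2 y = n2 (fun i => a * ‖y i‖) := by
    have := n2_smul a (fun i => ‖y i‖)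
    rw [Real.norm_of_nonneg ha, n2_congr (z := y) fun i => norm_norm _] at this
    exact this.symm
  rw [e1]
  refine (n2_mono (z := (fun i => ‖z i‖) + fun _ => C) fun i => ?_).trans ((n2_add _ _).trans
    (add_le_add (n2_congr fun i => norm_norm _).le (n2_le _ fun _ => (Real.norm_of_nonneg hC).le)))
  rw [Real.norm_of_nonneg (mul_nonneg ha (norm_nonneg _))]
  exact (h i).trans (le_abs_self _)

variable [InnerProductSpace ℂ E]

theorem conj_ch (a : ZMod q) : (starRingEnd ℂ) (ch a) = ch (-a) := by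
  rw [ch_neg, Complex.inv_def, Complex.normSq_eq_norm_sq, norm_ch]; simp

theorem D_adj (y w : ZMod q → E) :
    ∑ k, ⟪D q E y k, w k⟫_ℂ = q * ∑ i, ⟪y i, (D q E).symm w i⟫_ℂ := by
  have : (q : ℂ) ≠ 0 := Nat.cast_ne_zero.2 (NeZero.ne q)
  simp only [D_apply, D_symm, sum_inner, inner_sum, inner_smul_left, inner_smul_right, conj_ch,
    neg_neg, ← Finset.mul_sum, mul_inv_cancel_left₀ this]
  rw [Finset.sum_comm]
  simp only [mul_comm]

/-- **Parseval** -/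
theorem n2_D (y : ZMod q → E) : n2 (D q E y) ^ 2 = q * n2 y ^ 2 := by
  have := D_adj y (D q E y)
  simp only [ContinuousLinearEquiv.symm_apply_apply, inner_self_eq_norm_sq_to_K] at this
  rw [n2_sq, n2_sq]
  apply Complex.ofReal_injective
  push_cast
  exact this

theorem n2_mu_le {ν : ZMod q → ℂ} {c : ℝ} (h : ∀ k, ‖ν k‖ ≤ c) (y : ZMod q → E) :
    n2 (mu ν y) ≤ c * n2 y := by
  have h0 : 0 ≤ c := (norm_nonneg _).trans (h 0)
  have hq : (0 : ℝ) < q := Nat.cast_pos.2 (Nat.pos_of_ne_zero (NeZero.ne q))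
  have a : n2 (D q E (mu ν y)) ≤ c * n2 (D q E y) := by
    rw [← Real.norm_of_nonneg h0, ← Complex.norm_real, ← n2_smul]
    refine n2_mono fun k => ?_
    rw [D_mu, Pi.smul_apply, norm_smul, norm_smul, Complex.norm_real, Real.norm_of_nonneg h0]
    exact mul_le_mul_of_nonneg_right (h k) (norm_nonneg _)
  have b := pow_le_pow_left₀ (n2_nonneg _) a 2
  rw [mul_pow, n2_D, n2_D] at b
  refine (pow_le_pow_iff_left₀ (n2_nonneg _) (mul_nonneg h0 (n2_nonneg _)) two_ne_zero).1 ?_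
  rw [mul_pow]
  exact le_of_mul_le_mul_left (by linarith) hq

theorem n2_mu {ν : ZMod q → ℂ} (h : ∀ k, ‖ν k‖ = 1) (y : ZMod q → E) : n2 (mu ν y) = n2 y := by
  refine le_antisymm ((n2_mu_le (fun k => (h k).le) y).trans_eq (one_mul _)) ?_
  have := n2_mu_le (ν := ν⁻¹) (c := 1) (fun k => by rw [Pi.inv_apply, norm_inv, h, inv_one]) (mu ν y)
  rwa [mu_inv fun k e => by simpa [e] using h k, one_mul] at this

theorem n2_g (r : ℝ) (y : ZMod q → E) : n2 (g r y) = n2 y := n2_mu (norm_gs r) y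

end Crest.Agent.N218.Fo

end
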