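import Crest.Agent.N218.D2.Yk

/-! # N218/Fo/Fo (helper45): Fourier multipliers on `ZMod q → E` -/

set_option autoImplicit false

set_option linter.unusedSectionVars false

open Complex
open ZMod hiding map_smul

noncomputable section

namespace Crest.Agent.N218.Fo

variable {q : ℕ} [NeZero q] {E F : Type} [NormedAddCommGroup E] [NormedSpace ℂ E]
  [NormedAddCommGroup F] [NormedSpace ℂ F]

/-- the standard character -/
abbrev ch (j : ZMod q) : ℂ := stdAddChar j

theorem ch_add (a b : ZMod q) : ch (a + b) = ch a * ch b := AddChar.map_add_eq_mul _ _ _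
theorem ch_zero : ch (0 : ZMod q) = 1 := AddChar.map_zero_eq_one _
theorem ch_ne (a : ZMod q) : ch a ≠ 0 := fun h => by
  have := ch_add a (-a)
  rw [add_neg_cancel, ch_zero, h, zero_mul] at this
  exact one_ne_zero this
theorem ch_neg (a : ZMod q) : ch (-a) = (ch a)⁻¹ :=
  eq_inv_of_mul_eq_one_left (by rw [← ch_add, neg_add_cancel, ch_zero])
theorem norm_ch (a : ZMod q) : ‖ch a‖ = 1 := Circle.norm_coe (toCircle a)
theorem ch_eq (a : ZMod q) : ch a = exp (2 * Real.pi * I * a.val / q) := toCircle_apply a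
theorem ch_mul (a k : ZMod q) : ch (a * k) = ch a ^ k.val := by
  rw [← AddChar.map_nsmul_eq_pow, nsmul_eq_mul, natCast_zmod_val, mul_comm]

variable (q E) in
/-- the discrete Fourier transform as a homeomorphism -/
def D : (ZMod q → E) ≃L[ℂ] (ZMod q → E) where
  toLinearEquiv := dft
  continuous_toFun := continuous_pi fun k => by
    change Continuous fun y : ZMod q → E => dft y k
    simp only [dft_apply]; fun_prop
  continuous_invFun := continuous_pi fun k => by
    change Continuous fun y : ZMod q → E => dft.symm y k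
    simp only [invDFT_apply]; fun_prop

theorem D_apply (y : ZMod q → E) (k : ZMod q) : D q E y k = ∑ j, ch (-(j * k)) • y j :=
  dft_apply y k
theorem D_symm (y : ZMod q → E) (i : ZMod q) :
    (D q E).symm y i = (q : ℂ)⁻¹ • ∑ k, ch (k * i) • y k := invDFT_apply y i
theorem D_ext {y z : ZMod q → E} (h : ∀ k, D q E y k = D q E z k) : y = z :=
  (D q E).injective (funext h)
theorem D_zero {y : ZMod q → E} (h : ∀ k, D q E y k = 0) : y = 0 :=
  D_ext fun k => by rw [h, map_zero]; rfl

/-- diagonal maps -/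
def dg (ν : ZMod q → ℂ) : (ZMod q → E) →L[ℂ] (ZMod q → E) :=
  ContinuousLinearMap.pi fun k => ν k • ContinuousLinearMap.proj k

/-- **multipliers** -/
def mu (ν : ZMod q → ℂ) : (ZMod q → E) →L[ℂ] (ZMod q → E) :=
  (D q E).symm.toContinuousLinearMap.comp ((dg ν).comp (D q E).toContinuousLinearMap)

@[simp] theorem D_mu (ν : ZMod q → ℂ) (y : ZMod q → E) (k : ZMod q) :
    D q E (mu ν y) k = ν k • D q E y k := by
  simp [mu, dg]

theorem mu_apply (ν : ZMod q → ℂ) (y : ZMod q → E) (i : ZMod q) :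
    mu ν y i = (q : ℂ)⁻¹ • ∑ k, ch (k * i) • ν k • D q E y k := by
  change (D q E).symm _ i = _
  rw [D_symm]; rfl

theorem mu_mu (ν ν' : ZMod q → ℂ) (y : ZMod q → E) : mu ν (mu ν' y) = mu (ν * ν') y :=
  D_ext fun k => by simp [smul_smul]
theorem mu_mul (ν ν' : ZMod q → ℂ) : (mu (ν * ν') : (ZMod q → E) →L[ℂ] _) = mu ν * mu ν' :=
  ContinuousLinearMap.ext fun y => (mu_mu ν ν' y).symm
theorem mu_comm (ν ν' : ZMod q → ℂ) (y : ZMod q → E) : mu ν (mu ν' y) = mu ν' (mu ν y) := by
  rw [mu_mu, mu_mu, mul_comm]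
theorem mu_const (c : ℂ) (y : ZMod q → E) : mu (fun _ => c) y = c • y := D_ext fun k => by simp
theorem mu_one (y : ZMod q → E) : mu 1 y = y := D_ext fun k => by simp
theorem mu_zero (y : ZMod q → E) : mu 0 y = 0 := D_ext fun k => by simp
theorem mu_add (ν ν' : ZMod q → ℂ) (y : ZMod q → E) : mu (ν + ν') y = mu ν y + mu ν' y :=
  D_ext fun k => by simp [add_smul]
theorem mu_sub (ν ν' : ZMod q → ℂ) (y : ZMod q → E) : mu (ν - ν') y = mu ν y - mu ν' y :=
  D_ext fun k => by simp [sub_smul]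
theorem mu_neg (ν : ZMod q → ℂ) (y : ZMod q → E) : mu (-ν) y = -mu ν y := D_ext fun k => by simp
theorem mu_smul (c : ℂ) (ν : ZMod q → ℂ) (y : ZMod q → E) : mu (c • ν) y = c • mu ν y :=
  D_ext fun k => by simp [smul_smul]
theorem mu_inv {ν : ZMod q → ℂ} (h : ∀ k, ν k ≠ 0) (y : ZMod q → E) : mu ν⁻¹ (mu ν y) = y :=
  D_ext fun k => by simp [h k]
theorem mu_inv' {ν : ZMod q → ℂ} (h : ∀ k, ν k ≠ 0) (y : ZMod q → E) : mu ν (mu ν⁻¹ y) = y := by
  rw [mu_comm, mu_inv h]
theorem mu_congr {ν ν' : ZMod q → ℂ} {y : ZMod q → E} (h : ∀ k, ν k = ν' k ∨ D q E y k = 0) :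
    mu ν y = mu ν' y := D_ext fun k => by rcases h k with h | h <;> simp [h]

theorem continuous_mu : Continuous fun p : (ZMod q → ℂ) × (ZMod q → E) => mu p.1 p.2 :=
  continuous_pi fun i => by
    simp only [mu_apply, D_apply]; fun_prop

@[fun_prop] theorem cont_mu {T : Type*} [TopologicalSpace T] {ν : T → ZMod q → ℂ}
    {y : T → ZMod q → E} (hν : Continuous ν) (hy : Continuous y) :
    Continuous fun t => mu (ν t) (y t) :=
  Continuous.comp (g := fun p : (ZMod q → ℂ) × (ZMod q → E) => mu p.1 p.2)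
    (f := fun t => (ν t, y t)) continuous_mu (hν.prodMk hy)

theorem continuous_muL : Continuous fun ν : ZMod q → ℂ => (mu ν : (ZMod q → E) →L[ℂ] _) := by
  have : (fun ν : ZMod q → ℂ => (mu ν : (ZMod q → E) →L[ℂ] _)) =
      fun ν => ∑ k, ν k • mu (Pi.single k 1) := by
    funext ν
    refine ContinuousLinearMap.ext fun y => D_ext fun k => ?_
    simp [Finset.sum_apply, Pi.single_apply]
  rw [this]; fun_prop

/-- multipliers with non-zero symbol as equivalences -/
def muE (ν : ZMod q → ℂ) (h : ∀ k, ν k ≠ 0) : (ZMod q → E) ≃L[ℂ] (ZMod q → E) :=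
  ContinuousLinearEquiv.equivOfInverse (mu ν) (mu ν⁻¹) (mu_inv h) (mu_inv' h)

/-- the action of `ZMod q`: `(a · y) i = y (i + a)` -/
def sh (a : ZMod q) (y : ZMod q → E) : ZMod q → E := fun i => y (i + a)

theorem D_sh (a : ZMod q) (y : ZMod q → E) (k : ZMod q) :
    D q E (sh a y) k = ch (a * k) • D q E y k := by
  rw [D_apply, D_apply, Finset.smul_sum]
  refine Fintype.sum_equiv (Equiv.addRight a) _ _ fun j => ?_
  simp only [sh, Equiv.coe_addRight, smul_smul, ← ch_add]
  congr 2; ring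

theorem sh_eq (a : ZMod q) (y : ZMod q → E) : sh a y = mu (fun k => ch (a * k)) y :=
  D_ext fun k => by rw [D_sh, D_mu]

theorem mu_sh (ν : ZMod q → ℂ) (a : ZMod q) (y : ZMod q → E) : mu ν (sh a y) = sh a (mu ν y) := by
  rw [sh_eq, sh_eq, mu_comm]

theorem D_N (A : E →L[ℂ] F) (y : ZMod q → E) (k : ZMod q) :
    D q F (fun i => A (y i)) k = A (D q E y k) := by
  simp [D_apply]

/-- multipliers commute with complex linear maps of the slots -/
theorem mu_N (ν : ZMod q → ℂ) (A : E →L[ℂ] F) (y : ZMod q → E) :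
    mu ν (fun i => A (y i)) = fun i => A (mu ν y i) :=
  D_ext fun k => by rw [D_mu, D_N, D_N, D_mu, map_smul]

/-! ## the circle action -/

/-- the symbol of `g r` -/
def gs (r : ℝ) (k : ZMod q) : ℂ := exp (2 * Real.pi * I * r * k.val / q)

/-- the one-parameter group with weights `0, …, q - 1` -/
def g (r : ℝ) : (ZMod q → E) →L[ℂ] (ZMod q → E) := mu (gs r)

theorem gs_ne (r : ℝ) (k : ZMod q) : gs r k ≠ 0 := exp_ne_zero _
theorem gs_zero : gs (q := q) 0 = 1 := funext fun k => by simp [gs]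
theorem gs_add (r s : ℝ) : gs (q := q) (r + s) = gs r * gs s := funext fun k => by
  simp only [gs, Pi.mul_apply, ← exp_add]; congr 1; push_cast; ring
theorem gs_one (k : ZMod q) : gs 1 k = ch k := by simp [gs, ch_eq]
theorem gs_neg (r : ℝ) : gs (q := q) (-r) = (gs r)⁻¹ := funext fun k => by
  simp only [gs, Pi.inv_apply, ← exp_neg]; congr 1; push_cast; ring
theorem gs_q : gs (q := q) q = 1 := funext fun k => by
  have : (q : ℂ) ≠ 0 := Nat.cast_ne_zero.2 (NeZero.ne q)
  rw [gs, Pi.one_apply, ← exp_nat_mul_two_pi_mul_I k.val]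
  congr 1; push_cast; field_simp
theorem norm_gs (r : ℝ) (k : ZMod q) : ‖gs r k‖ = 1 := by
  rw [gs, show 2 * Real.pi * I * r * k.val / q = ((2 * Real.pi * r * k.val / q : ℝ) : ℂ) * I by
    push_cast; ring, norm_exp_ofReal_mul_I]
@[fun_prop] theorem continuous_gs : Continuous (gs : ℝ → ZMod q → ℂ) :=
  continuous_pi fun k => by unfold gs; fun_prop

theorem g_zero (y : ZMod q → E) : g 0 y = y := by rw [g, gs_zero, mu_one]
theorem g_add (r s : ℝ) (y : ZMod q → E) : g (r + s) y = g r (g s y) := by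
  rw [g, gs_add, ← mu_mu]; rfl
theorem g_neg (r : ℝ) (y : ZMod q → E) : g (-r) (g r y) = y := by
  rw [← g_add, neg_add_cancel, g_zero]
theorem g_neg' (r : ℝ) (y : ZMod q → E) : g r (g (-r) y) = y := by
  rw [← g_add, add_neg_cancel, g_zero]
theorem g_one (y : ZMod q → E) : g 1 y = sh 1 y := by
  rw [sh_eq, g]; congr 2; funext k; rw [gs_one, one_mul]
theorem sh_sh (a b : ZMod q) (y : ZMod q → E) : sh a (sh b y) = sh (a + b) y :=
  funext fun i => by simp only [sh, add_assoc]
theorem sh_zero (y : ZMod q → E) : sh 0 y = y := funext fun i => by simp only [sh, add_zero]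
theorem g_neg_one (y : ZMod q → E) : g (-1) y = sh (-1) y := by
  have := g_neg 1 (sh (-1) y)
  rwa [g_one, sh_sh, add_neg_cancel, sh_zero] at this
theorem g_q (y : ZMod q → E) : g q y = y := by rw [g, gs_q, mu_one]
theorem g_sh (r : ℝ) (a : ZMod q) (y : ZMod q → E) : g r (sh a y) = sh a (g r y) := mu_sh _ _ _
@[fun_prop] theorem cont_g {T : Type*} [TopologicalSpace T] {r : T → ℝ} {y : T → ZMod q → E}
    (hr : Continuous r) (hy : Continuous y) : Continuous fun t => g (r t) (y t) :=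
  cont_mu (continuous_gs.comp hr) hy

/-! ## the odd part -/

/-- `q = m + m`: the half turn acts by `(-1) ^ k` on the `k`-th component -/
theorem ch_half {m : ℕ} (hq : q = m + m) (k : ZMod q) : ch ((m : ZMod q) * k) = (-1) ^ k.val := by
  have h0 : (m : ℂ) ≠ 0 := Nat.cast_ne_zero.2 fun h => NeZero.ne q (by omega)
  rw [ch_mul]; congr 1
  change ((toCircle (m : ZMod q) : Circle) : ℂ) = _
  rw [toCircle_natCast, ← exp_pi_mul_I]; congr 1
  rw [hq]; push_cast; field_simp; ring

theorem D_mn {m : ℕ} (hq : q = m + m) (y : ZMod q → E) (k : ZMod q) :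
    D q E (Yk.mn (Equiv.addRight (m : ZMod q)) y) k = if Odd k.val then D q E y k else 0 := by
  have e : Yk.mn (Equiv.addRight (m : ZMod q)) y = (1 / 2 : ℂ) • (y - sh m y) := funext fun i => by
    simp only [Yk.mn, sh, Pi.smul_apply, Pi.sub_apply, Equiv.coe_addRight]
    rw [← Complex.coe_smul]; norm_num
  rw [e, map_smul, map_sub, Pi.smul_apply, Pi.sub_apply, D_sh, ch_half hq]
  split_ifs with h
  · rw [h.neg_one_pow]; module
  · rw [(Nat.not_odd_iff_even.1 h).neg_one_pow]; module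

theorem mn_eq {m : ℕ} (hq : q = m + m) (y : ZMod q → E) :
    Yk.mn (Equiv.addRight (m : ZMod q)) y = mu (fun k => if Odd k.val then 1 else 0) y :=
  D_ext fun k => by rw [D_mn hq, D_mu]; split_ifs <;> simp

theorem mn_mu {m : ℕ} (hq : q = m + m) (ν : ZMod q → ℂ) (y : ZMod q → E) :
    Yk.mn (Equiv.addRight (m : ZMod q)) (mu ν y) = mu ν (Yk.mn (Equiv.addRight (m : ZMod q)) y) := by
  rw [mn_eq hq, mn_eq hq, mu_comm]

theorem mn_zero_iff {m : ℕ} (hq : q = m + m) {y : ZMod q → E} :
    Yk.mn (Equiv.addRight (m : ZMod q)) y = 0 ↔ ∀ k : ZMod q, Odd k.val → D q E y k = 0 :=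
  ⟨fun h k hk => by have := D_mn hq y k; rwa [h, if_pos hk, map_zero, eq_comm] at this,
    fun h => D_zero fun k => by rw [D_mn hq]; split_ifs with hk; exacts [h k hk, rfl]⟩

/-- the odd part of a zero of a multiplier vanishes if the odd symbol does not -/
theorem mn_of_mu {m : ℕ} (hq : q = m + m) {ν : ZMod q → ℂ} (h : ∀ k : ZMod q, Odd k.val → ν k ≠ 0)
    {y : ZMod q → E} (hy : Yk.mn (Equiv.addRight (m : ZMod q)) (mu ν y) = 0) :
    Yk.mn (Equiv.addRight (m : ZMod q)) y = 0 :=
  (mn_zero_iff hq).2 fun k hk => by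
    have := (mn_zero_iff hq).1 hy k hk
    rw [D_mu] at this
    exact (smul_eq_zero.1 this).resolve_left (h k hk)

/-- odd characters are not real once `4 ∣ q` -/
theorem ch_im_ne {m : ℕ} (hq : q = (m + m) + (m + m)) {k : ZMod q} (hk : Odd k.val) :
    (ch k).im ≠ 0 := fun h => by
  have h1 := ch_half hq k
  rw [hk.neg_one_pow, mul_comm, ch_mul] at h1
  have hv : ((m + m : ℕ) : ZMod q).val = m + m := val_natCast_of_lt (by have := NeZero.ne q; omega)
  have e : ch k = ((ch k).re : ℂ) := Complex.ext (by simp) (by simp [h])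
  rw [hv, e, ← ofReal_pow, pow_add] at h1
  have h2 : (ch k).re ^ m * (ch k).re ^ m = -1 := by exact_mod_cast h1
  nlinarith [mul_self_nonneg ((ch k).re ^ m)]

/-- one component of a `2 × 2` block system; `A`, `B` compose to the scalar `c` -/
theorem block {a b c d e : ℂ} {A : F →L[ℂ] E} {B : E →L[ℂ] F} (hA : ∀ y, A (B y) = e • y)
    (hB : ∀ z, B (A z) = e • z) (h : a * d - b * c * e ≠ 0) {y : E} {z : F}
    (h1 : a • y + b • A z = 0) (h2 : c • B y + d • z = 0) : y = 0 ∧ z = 0 := by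
  have k1 := congrArg B h1
  have k2 := congrArg A h2
  simp only [map_add, map_smul, map_zero, hA, hB] at k1 k2
  refine ⟨(smul_eq_zero.1 ?_).resolve_left h, (smul_eq_zero.1 ?_).resolve_left h⟩
  · linear_combination (norm := module) d • h1 - b • k2
  · linear_combination (norm := module) a • h2 - c • k1

end Crest.Agent.N218.Fo

end
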